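import Mathlib.GroupTheory.FinitelyPresentedGroup
import Mathlib.Combinatorics.SimpleGraph.Acyclic
import Mathlib.Data.Set.Card
import Mathlib.Data.Real.Basic

namespace Vale.Agent.P196

open Classical in
/-- Amenability of a discrete group (Foelner condition, as in the problem). -/
def IsAmenable (G : Type*) [Group G] : Prop :=
  ∀ (K : Finset G) (ε : ℝ), 0 < ε → ∃ D : Finset G, D.Nonempty ∧
    ∀ g ∈ K, ((symmDiff (D.image (fun x => g * x)) D).card : ℝ) < ε * D.card

end Vale.Agent.P196
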